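import Mathlib.Analysis.Complex.Trigonometric
import Mathlib.Analysis.Complex.Norm
import Mathlib.Algebra.Field.GeomSum
import Mathlib.RingTheory.RootsOfUnity.Complex
import Mathlib.Tactic

/-!
P110: the maximum of a polynomial of degree below `n` on the circle is at most three times its
maximum over the `3n`-th roots of unity.
-/

namespace Vale.Agent.P110.Round

open Finset ComplexConjugate

/-- The geometric sum. -/
noncomputable def geom (l : ℕ) (u : ℂ) : ℂ := ∑ i ∈ range l, u ^ i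

theorem sum_pow_root {w : ℂ} {R : ℕ} (hw : IsPrimitiveRoot w R) (hR : 0 < R) (k : ℤ) :
    ∑ r ∈ range R, (w ^ k) ^ r = if (R : ℤ) ∣ k then (R : ℂ) else 0 := by
  by_cases hk : (R : ℤ) ∣ k
  · rw [if_pos hk, (hw.zpow_eq_one_iff_dvd k).2 hk]
    simp
  · rw [if_neg hk]
    have hne : w ^ k ≠ 1 := fun h => hk ((hw.zpow_eq_one_iff_dvd k).1 h)
    rw [geom_sum_eq hne]
    have : (w ^ k) ^ R = 1 := by
      rw [← zpow_natCast, ← zpow_mul, mul_comm, zpow_mul, zpow_natCast, hw.pow_eq_one, one_zpow]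
    rw [this, sub_self, zero_div]

theorem count_pairs (l k : ℕ) :
    ((range l ×ˢ range l).filter fun q : ℕ × ℕ => q.1 = q.2 + k).card = l - k := by
  rw [← card_range (l - k)]
  refine (card_nbij' (fun j => (j + k, j)) (fun q => q.2) ?_ ?_ ?_ ?_).symm
  · intro j hj
    simp only [coe_range, Set.mem_Iio, coe_filter, mem_product, mem_range] at hj ⊢
    exact ⟨⟨by omega, by omega⟩, rfl⟩
  · intro q hq
    simp only [coe_range, Set.mem_Iio, coe_filter, mem_product, mem_range,
      Set.mem_setOf_eq] at hq ⊢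
    omega
  · intro j _; rfl
  · intro q hq
    simp only [coe_filter, mem_product, mem_range, Set.mem_setOf_eq] at hq
    exact Prod.ext hq.2.symm rfl

theorem unit_ne_zero {z : ℂ} (hz : ‖z‖ = 1) : z ≠ 0 := fun h => by simp [h] at hz

theorem conj_unit {z : ℂ} (hz : ‖z‖ = 1) : conj z = z⁻¹ := (Complex.inv_eq_conj hz).symm

/-- Averaging a polynomial against a Fejer square over roots of unity. -/
theorem avg_square {n R l : ℕ} (c : Fin n → ℂ) {w z : ℂ} (hw : IsPrimitiveRoot w R)
    (hR : n + l ≤ R) (hl : 0 < l) (hz : ‖z‖ = 1) :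
    ∑ r ∈ range R, (∑ k, c k * (w ^ r) ^ (k : ℕ)) *
        ((Complex.normSq (geom l (z / w ^ r)) : ℝ) : ℂ) =
      (R : ℂ) * ∑ k, c k * z ^ (k : ℕ) * ((l - (k : ℕ) : ℕ) : ℂ) := by
  have hR0 : 0 < R := by omega
  have hwn : ‖w‖ = 1 := Complex.norm_eq_one_of_pow_eq_one hw.pow_eq_one hR0.ne'
  have hw0 := unit_ne_zero hwn
  have hz0 := unit_ne_zero hz
  have hsq : ∀ r : ℕ, ((Complex.normSq (geom l (z / w ^ r)) : ℝ) : ℂ) =
      ∑ q ∈ range l ×ˢ range l,
        z ^ ((q.1 : ℤ) - q.2) * (w ^ ((q.2 : ℤ) - q.1)) ^ r := by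
    intro r
    have hu : ‖z / w ^ r‖ = 1 := by rw [norm_div, norm_pow, hz, hwn, one_pow, div_one]
    rw [← Complex.mul_conj, geom, map_sum, sum_mul_sum, sum_product]
    refine sum_congr rfl fun i _ => sum_congr rfl fun j _ => ?_
    rw [map_pow, conj_unit hu, inv_pow, zpow_sub₀ hz0, zpow_sub₀ hw0]
    simp only [zpow_natCast, div_pow, inv_div, ← pow_mul]
    rw [mul_comm r i, mul_comm r j]
    field_simp
  calc _ = ∑ k : Fin n, ∑ q ∈ range l ×ˢ range l, c k * z ^ ((q.1 : ℤ) - q.2) *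
        ∑ r ∈ range R, (w ^ (((k : ℕ) : ℤ) + (q.2 : ℤ) - q.1)) ^ r := by
        simp only [hsq, sum_mul, mul_sum]
        rw [Finset.sum_comm]
        refine (sum_congr rfl fun x _ => Finset.sum_comm).trans ?_
        rw [Finset.sum_comm]
        refine sum_congr rfl fun k _ => sum_congr rfl fun q _ => sum_congr rfl fun r _ => ?_
        rw [add_sub_assoc, zpow_add₀ hw0, mul_pow, zpow_natCast, ← pow_mul, ← pow_mul,
          mul_comm r (k : ℕ)]
        ring
    _ = ∑ k : Fin n, ∑ q ∈ range l ×ˢ range l,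
        if q.1 = q.2 + (k : ℕ) then (R : ℂ) * (c k * z ^ (k : ℕ)) else 0 := by
        refine sum_congr rfl fun k _ => sum_congr rfl fun q hq => ?_
        simp only [mem_product, mem_range] at hq
        rw [sum_pow_root hw hR0]
        by_cases he : q.1 = q.2 + (k : ℕ)
        · rw [if_pos he, if_pos ⟨0, by omega⟩,
            show (q.1 : ℤ) - q.2 = ((k : ℕ) : ℤ) by omega, zpow_natCast]
          ring
        · rw [if_neg he, if_neg, mul_zero]
          intro hd
          have hk := k.2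
          have h0 := Int.eq_zero_of_abs_lt_dvd hd (by rw [abs_lt]; omega)
          omega
    _ = _ := by
        rw [mul_sum]
        refine sum_congr rfl fun k _ => ?_
        rw [← sum_filter, sum_const, count_pairs, nsmul_eq_mul]
        ring

/-- The bound on the circle from the bound at the roots of unity. -/
theorem norm_le_of_roots {n R : ℕ} (hn : 0 < n) (hR : 3 * n ≤ R) (c : Fin n → ℂ) {w : ℂ}
    (hw : IsPrimitiveRoot w R) {B : ℝ} (hB : ∀ r < R, ‖∑ k, c k * (w ^ r) ^ (k : ℕ)‖ ≤ B)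
    {z : ℂ} (hz : ‖z‖ = 1) : ‖∑ k, c k * z ^ (k : ℕ)‖ ≤ 3 * B := by
  have hR0 : 0 < R := by omega
  have hwn : ‖w‖ = 1 := Complex.norm_eq_one_of_pow_eq_one hw.pow_eq_one hR0.ne'
  set P : ℕ → ℂ := fun r => ∑ k, c k * (w ^ r) ^ (k : ℕ) with hP
  have h2 := avg_square c hw (l := 2 * n) (by omega) (by omega) hz
  have h1 := avg_square c hw (l := n) (by omega) hn hz
  have hdiff : (R : ℂ) * (n : ℂ) * ∑ k, c k * z ^ (k : ℕ) =
      ∑ r ∈ range R, P r * ((Complex.normSq (geom (2 * n) (z / w ^ r)) : ℝ) : ℂ) -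
        ∑ r ∈ range R, P r * ((Complex.normSq (geom n (z / w ^ r)) : ℝ) : ℂ) := by
    rw [h1, h2, ← mul_sub, ← sum_sub_distrib, mul_assoc, mul_sum]
    congr 1
    refine sum_congr rfl fun k _ => ?_
    have hk := k.2
    rw [Nat.cast_sub (by omega : (k : ℕ) ≤ 2 * n), Nat.cast_sub hk.le]
    push_cast
    ring
  have hbound : ∀ l : ℕ, 0 < l → n + l ≤ R →
      ‖∑ r ∈ range R, P r * ((Complex.normSq (geom l (z / w ^ r)) : ℝ) : ℂ)‖ ≤
        B * ((R : ℝ) * l) := by
    intro l hl hlR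
    have hone : ∑ r ∈ range R, Complex.normSq (geom l (z / w ^ r)) = (R : ℝ) * l := by
      have := avg_square (fun _ : Fin 1 => (1 : ℂ)) hw (l := l) (by omega) hl hz
      simp only [Fin.sum_univ_one, Fin.val_zero, pow_zero, mul_one, one_mul, Nat.sub_zero] at this
      exact_mod_cast this
    refine le_trans (norm_sum_le _ _) ?_
    rw [← hone, mul_sum]
    refine sum_le_sum fun r hr => ?_
    rw [norm_mul, Complex.norm_real, Real.norm_eq_abs, abs_of_nonneg (Complex.normSq_nonneg _)]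
    exact mul_le_mul_of_nonneg_right (hB r (mem_range.1 hr)) (Complex.normSq_nonneg _)
  have hnorm := congrArg (fun x : ℂ => ‖x‖) hdiff
  simp only [norm_mul, Complex.norm_natCast] at hnorm
  have h := le_trans (le_of_eq hnorm) (le_trans (norm_sub_le _ _)
    (add_le_add (hbound (2 * n) (by omega) (by omega)) (hbound n hn (by omega))))
  refine le_of_mul_le_mul_left (le_trans h (le_of_eq ?_))
    (show (0 : ℝ) < (R : ℝ) * n by positivity)
  push_cast
  ring

end Vale.Agent.P110.Round
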