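import Vale.Agent.P110.Round.Spencer
import Vale.Agent.P110.Round.Trig

/-!
P110: rounding real coefficients of small total deficit to signs, changing the polynomial by
little on the whole circle.
-/

namespace Vale.Agent.P110.Round

open Finset

theorem mul_log_div_le {δ : ℝ} (hδ : 0 < δ) : δ * Real.log (28 / δ) ≤ 12 * Real.sqrt δ := by
  set t := Real.sqrt (28 / δ) with ht
  have ht0 : 0 < t := Real.sqrt_pos.2 (by positivity)
  have h1 : Real.log (28 / δ) ≤ 2 * t := by
    have h := Real.log_le_sub_one_of_pos ht0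
    rw [ht, Real.log_sqrt (by positivity)] at h
    linarith
  have h2 : δ * t ≤ 6 * Real.sqrt δ := by
    have h28 : Real.sqrt 28 ≤ 6 := by
      rw [Real.sqrt_le_iff]; norm_num
    have e : δ * t = Real.sqrt δ * Real.sqrt 28 := by
      rw [ht, Real.sqrt_div (by norm_num) δ]
      nth_rewrite 1 [← Real.mul_self_sqrt hδ.le]
      field_simp
    rw [e, mul_comm (6 : ℝ)]
    exact mul_le_mul_of_nonneg_left h28 (Real.sqrt_nonneg _)
  have := mul_le_mul_of_nonneg_left h1 hδ.le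
  linarith

/-- Floor to a dyadic number: the deficit grows by at most the grid step. -/
theorem deficit_floor (J : ℕ) {u : ℝ} (hu0 : 0 ≤ u) (hu1 : u ≤ 1) :
    ⌊u * 2 ^ J⌋₊ ≤ 2 ^ J ∧
      |u - (⌊u * 2 ^ J⌋₊ : ℝ) / 2 ^ J| ≤ 1 / 2 ^ J ∧
      deficit J ⌊u * 2 ^ J⌋₊ ≤ min u (1 - u) + 1 / 2 ^ J := by
  have hp : (0 : ℝ) < 2 ^ J := by positivity
  have h0 : 0 ≤ u * 2 ^ J := by positivity
  set z := ⌊u * 2 ^ J⌋₊ with hz
  have h1 : (z : ℝ) ≤ u * 2 ^ J := Nat.floor_le h0
  have h2 : u * 2 ^ J < z + 1 := Nat.lt_floor_add_one _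
  have hzle : z ≤ 2 ^ J := by
    have : (z : ℝ) ≤ ((2 ^ J : ℕ) : ℝ) := by
      push_cast
      exact le_trans h1 (mul_le_of_le_one_left hp.le hu1)
    exact_mod_cast this
  refine ⟨hzle, ?_, ?_⟩
  · rw [abs_le]
    have a1 : (z : ℝ) / 2 ^ J ≤ u := (div_le_iff₀ hp).2 h1
    have a2 : u - 1 / 2 ^ J ≤ (z : ℝ) / 2 ^ J := by
      rw [le_div_iff₀ hp, sub_mul, div_mul_cancel₀ _ hp.ne']
      linarith
    have : (0 : ℝ) ≤ 1 / 2 ^ J := by positivity
    constructor <;> linarith
  · rw [deficit, Nat.cast_min, Nat.cast_sub hzle, ← min_div_div_right hp.le,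
      ← min_add_add_right]
    push_cast
    refine min_le_min ?_ ?_
    · rw [div_le_iff₀ hp, add_mul, div_mul_cancel₀ _ hp.ne']
      linarith
    · rw [div_le_iff₀ hp, add_mul, sub_mul, div_mul_cancel₀ _ hp.ne']
      linarith

/-- Rounding: coefficients in `[-1, 1]` of small total deficit can be replaced by signs while
changing the polynomial by at most `η √N` everywhere on the circle. -/
theorem round_flat : ∀ η : ℝ, 0 < η → ∃ δ : ℝ, 0 < δ ∧ ∃ N0 : ℕ, ∀ N : ℕ, N0 ≤ N →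
    ∀ c : Fin N → ℝ, (∀ k, |c k| ≤ 1) → ∑ k, (1 - |c k|) ≤ δ * N →
      ∃ ε : Fin N → ℝ, (∀ k, ε k = 1 ∨ ε k = -1) ∧ ∀ z : ℂ, ‖z‖ = 1 →
        ‖∑ k : Fin N, ((ε k - c k : ℝ) : ℂ) * z ^ (k : ℕ)‖ ≤ η * Real.sqrt N := by
  intro η hη
  set e := η / 172800 with he
  have he0 : 0 < e := by positivity
  set δ := min 1 (e ^ 4) with hδdef
  have hδ0 : 0 < δ := lt_min one_pos (by positivity)
  have hδ1 : δ ≤ 1 := min_le_left _ _
  refine ⟨δ, hδ0, ⌈(7202 / δ) ^ 2 + (24 / η) ^ 2⌉₊ + 1, fun N hN c hc hdef => ?_⟩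
  have hN1 : 1 ≤ N := by omega
  have hNR : (7202 / δ) ^ 2 + (24 / η) ^ 2 ≤ N :=
    le_trans (Nat.le_ceil _) (by exact_mod_cast (by omega : ⌈(7202 / δ) ^ 2 + (24 / η) ^ 2⌉₊ ≤ N))
  have hN0 : (1 : ℝ) ≤ N := by exact_mod_cast hN1
  set s := Real.sqrt (N : ℝ) with hs
  have hs1 : 1 ≤ s := Real.one_le_sqrt.2 hN0
  have hss : s * s = N := Real.mul_self_sqrt (by linarith)
  have hs7 : 7202 ≤ δ * s := by
    have : 7202 / δ ≤ s := Real.le_sqrt_of_sq_le (le_trans (le_add_of_nonneg_right (sq_nonneg _)) hNR)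
    rw [div_le_iff₀ hδ0] at this
    linarith
  have hs24 : 24 ≤ η * s := by
    have : 24 / η ≤ s := Real.le_sqrt_of_sq_le (le_trans (le_add_of_nonneg_left (sq_nonneg _)) hNR)
    rw [div_le_iff₀ hη] at this
    linarith
  set R := 3 * N with hRdef
  set w : ℂ := Complex.exp (2 * Real.pi * Complex.I / R) with hw
  have hwp : IsPrimitiveRoot w R := Complex.isPrimitiveRoot_exp R (by omega)
  have hwn : ‖w‖ = 1 := Complex.norm_eq_one_of_pow_eq_one hwp.pow_eq_one (by omega)
  set a : Fin R × Bool → Fin N → ℝ := fun p k =>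
    if p.2 then ((w ^ (p.1 : ℕ)) ^ (k : ℕ)).re else ((w ^ (p.1 : ℕ)) ^ (k : ℕ)).im with ha'
  have hunit : ∀ r k : ℕ, ‖(w ^ r) ^ k‖ = 1 := fun r k => by
    rw [norm_pow, norm_pow, hwn, one_pow, one_pow]
  have ha : ∀ p k, |a p k| ≤ 1 := by
    intro p k
    simp only [ha']
    split_ifs
    · exact le_trans (Complex.abs_re_le_norm _) (hunit _ _).le
    · exact le_trans (Complex.abs_im_le_norm _) (hunit _ _).le
  have hκ : Fintype.card (Fin R × Bool) = 6 * N := by
    rw [Fintype.card_prod, Fintype.card_fin, Fintype.card_bool, hRdef]; ring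
  set u : Fin N → ℝ := fun k => (c k + 1) / 2 with hu
  have hu01 : ∀ k, 0 ≤ u k ∧ u k ≤ 1 := fun k => by
    have := abs_le.1 (hc k)
    simp only [hu]
    constructor <;> linarith
  set zz : Fin N → ℕ := fun k => ⌊u k * 2 ^ N⌋₊ with hzz
  have hfl := fun k => deficit_floor N (hu01 k).1 (hu01 k).2
  have hstep : (N : ℝ) * (1 / 2 ^ N) ≤ 1 := by
    rw [mul_one_div, div_le_one (by positivity)]
    exact_mod_cast (Nat.lt_two_pow_self (n := N)).le
  have hX : ∀ k : ℕ, k ≤ Fintype.card (Fin N) →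
      phi (Fintype.card (Fin R × Bool) + 1) k ≤ 6 * s := by
    intro k hk
    rw [Fintype.card_fin] at hk
    rw [hκ, phi]
    rcases Nat.eq_zero_or_pos k with rfl | hk0
    · simp only [Nat.cast_zero, zero_mul, Real.sqrt_zero]; positivity
    refine (Real.sqrt_le_left (by positivity)).2 ?_
    have hkN : (k : ℝ) ≤ N := by exact_mod_cast hk
    have hk0' : (0 : ℝ) < k := by exact_mod_cast hk0
    refine le_trans (mul_log_mono hk0' hkN (by push_cast; linarith)) ?_
    have h1 := Real.log_le_sub_one_of_pos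
      (show (0 : ℝ) < 4 * ((6 * N + 1 : ℕ) : ℝ) / N by positivity)
    have h2 : 4 * ((6 * N + 1 : ℕ) : ℝ) / N ≤ 28 := by
      rw [div_le_iff₀ (by linarith)]; push_cast; linarith
    have h3 := mul_le_mul_of_nonneg_left (show _ ≤ (28 : ℝ) by linarith)
      (show (0 : ℝ) ≤ N by linarith) (b := Real.log (4 * ((6 * N + 1 : ℕ) : ℝ) / N))
    rw [mul_pow, sq s, hss]
    linarith
  have hD1 : δ * (N : ℝ) ≤ ((Fintype.card (Fin R × Bool) + 1 : ℕ) : ℝ) := by
    rw [hκ]
    have := mul_le_mul_of_nonneg_right hδ1 (show (0 : ℝ) ≤ N by linarith)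
    push_cast
    linarith
  have hsum : ∑ k, deficit N (zz k) + 600 * (6 * s) * (1 - ((1 : ℝ) / 2) ^ N) ≤ δ * N := by
    have h1 : ∑ k, deficit N (zz k) ≤ ∑ k, ((1 - |c k|) / 2 + 1 / 2 ^ N) := by
      refine sum_le_sum fun k _ => le_trans (hfl k).2.2 (add_le_add_left (le_of_eq ?_) _)
      simp only [hu]
      rcases le_total 0 (c k) with h | h
      · rw [abs_of_nonneg h, min_eq_right (by linarith)]; ring
      · rw [abs_of_nonpos h, min_eq_left (by linarith)]; ring
    rw [sum_add_distrib, ← sum_div, sum_const, card_univ, Fintype.card_fin, nsmul_eq_mul] at h1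
    have h2 : 600 * (6 * s) * (1 - ((1 : ℝ) / 2) ^ N) ≤ 600 * (6 * s) := by
      refine mul_le_of_le_one_right (by positivity) ?_
      linarith [pow_nonneg (show (0 : ℝ) ≤ 1 / 2 by norm_num) N]
    have h3 : 7202 * s ≤ δ * N := by
      rw [← hss, ← mul_assoc]; exact mul_le_mul_of_nonneg_right hs7 (by linarith)
    linarith
  obtain ⟨b, hb1, hb⟩ := round_dyadic a ha (by rw [hκ, Fintype.card_fin]; omega) (6 * s) (δ * N)
    hX (by positivity) hD1 N zz (fun k => (hfl k).1) hsum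
  have hQ : Real.sqrt (δ * N * Real.log (4 * ((Fintype.card (Fin R × Bool) + 1 : ℕ) : ℝ) / (δ * N)))
      ≤ 4 * e * s := by
    refine (Real.sqrt_le_left (by positivity)).2 ?_
    have hlog : Real.log (4 * ((Fintype.card (Fin R × Bool) + 1 : ℕ) : ℝ) / (δ * N)) ≤
        Real.log (28 / δ) := by
      rw [hκ]
      refine Real.log_le_log (by positivity) ?_
      rw [div_le_div_iff₀ (by positivity) hδ0]
      push_cast
      have := mul_le_mul_of_nonneg_left (show 4 * (6 * (N : ℝ) + 1) ≤ 28 * N by linarith) hδ0.le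
      linarith
    have h1 := mul_le_mul_of_nonneg_left hlog (show (0 : ℝ) ≤ δ * N by positivity)
    have h2 := mul_le_mul_of_nonneg_right (mul_log_div_le hδ0) (show (0 : ℝ) ≤ N by linarith)
    have h3 : Real.sqrt δ ≤ e ^ 2 := by
      refine (Real.sqrt_le_left (by positivity)).2 (le_trans (min_le_right _ _) (le_of_eq ?_))
      ring
    have h4 := mul_le_mul_of_nonneg_right h3 (show (0 : ℝ) ≤ N by linarith)
    have h5 : (0 : ℝ) ≤ e ^ 2 * N := by positivity
    rw [mul_pow, mul_pow, sq s, hss]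
    linarith
  refine ⟨fun k => 2 * (b k : ℝ) - 1, fun k => ?_, fun z hz => ?_⟩
  · have := hb1 k
    rcases (show b k = 0 ∨ b k = 1 by omega) with h | h <;> simp only [h] <;> norm_num
  have hrow : ∀ p, |∑ k, a p k * ((2 * (b k : ℝ) - 1) - c k)| ≤ 2 * (7200 * e * s + 1) := by
    intro p
    have e1 : ∑ k, a p k * ((2 * (b k : ℝ) - 1) - c k) =
        -2 * (∑ k, a p k * ((zz k : ℝ) / 2 ^ N - b k) +
          ∑ k, a p k * (u k - (zz k : ℝ) / 2 ^ N)) := by
      rw [← sum_add_distrib, mul_sum]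
      refine sum_congr rfl fun k _ => ?_
      simp only [hu]; ring
    rw [e1, abs_mul, abs_neg, abs_two]
    refine mul_le_mul_of_nonneg_left (le_trans (abs_add_le _ _) (add_le_add ?_ ?_)) zero_le_two
    · refine le_trans (hb p) ?_
      refine le_trans (mul_le_mul (mul_le_mul_of_nonneg_left hQ (by norm_num))
        (show 3 * (1 - (3 / 4 : ℝ) ^ N) ≤ 3 by
          linarith [pow_nonneg (show (0 : ℝ) ≤ 3 / 4 by norm_num) N]) ?_ (by positivity))
        (le_of_eq (by ring))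
      linarith [pow_le_one₀ (n := N) (by norm_num : (0 : ℝ) ≤ 3 / 4) (by norm_num)]
    · refine le_trans (abs_sum_le_sum_abs _ _) (le_trans (sum_le_sum
        (g := fun _ => (1 : ℝ) / 2 ^ N) fun k _ => ?_) ?_)
      · rw [abs_mul]
        exact le_trans (mul_le_of_le_one_left (abs_nonneg _) (ha p k)) (hfl k).2.1
      · rw [sum_const, card_univ, Fintype.card_fin, nsmul_eq_mul]
        exact hstep
  have hroots : ∀ r < R,
      ‖∑ k : Fin N, (((2 * (b k : ℝ) - 1) - c k : ℝ) : ℂ) * (w ^ r) ^ (k : ℕ)‖ ≤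
        4 * (7200 * e * s + 1) := by
    intro r hr
    refine le_trans (Complex.norm_le_abs_re_add_abs_im _) ?_
    have hre := hrow (⟨r, hr⟩, true)
    have him := hrow (⟨r, hr⟩, false)
    simp only [ha', if_true, Bool.false_eq_true, if_false] at hre him
    simp only [Complex.re_sum, Complex.im_sum, Complex.re_ofReal_mul, Complex.im_ofReal_mul,
      mul_comm (2 * (b _ : ℝ) - 1 - c _)]
    linarith
  refine le_trans (norm_le_of_roots (by omega) (le_refl R) _ hwp hroots hz) ?_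
  have : e * s = η * s / 172800 := by rw [he]; ring
  linarith

end Vale.Agent.P110.Round
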