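import Mathlib.Algebra.BigOperators.Field
import Mathlib.Algebra.Order.Round
import Mathlib.Analysis.Complex.ExponentialBounds
import Mathlib.Analysis.Complex.Trigonometric
import Mathlib.Analysis.SpecialFunctions.Log.Basic
import Mathlib.Analysis.SpecialFunctions.Trigonometric.Series
import Mathlib.Analysis.Real.Sqrt
import Mathlib.Data.Fintype.BigOperators

/-!
P110: a partial colouring for `m` rows on `n ≤ m` variables, by pigeonholing the rounded
discrepancies of the random signings.
-/

namespace Vale.Agent.P110.Round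

open Finset

variable {ι κ : Type*} [Fintype ι] [DecidableEq ι] [Fintype κ]

/-- The real sign of a boolean. -/
def sgn (b : Bool) : ℝ := if b then 1 else -1

/-- The discrepancy scale of `n` variables and `m` rows. -/
noncomputable def phi (m n : ℕ) : ℝ := Real.sqrt ((n : ℝ) * Real.log (4 * m / n))

theorem sgn_abs (b : Bool) : |sgn b| = 1 := by cases b <;> simp [sgn]

/-- The exponential moment of a signed sum. -/
theorem sum_exp_le (a : ι → ℝ) (ha : ∀ v, |a v| ≤ 1) (s : ℝ) :
    ∑ χ : ι → Bool, Real.exp (s * ∑ v, a v * sgn (χ v)) ≤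
      (2 : ℝ) ^ Fintype.card ι * Real.exp ((Fintype.card ι : ℝ) * (s ^ 2 / 2)) := by
  classical
  simp only [mul_sum, Real.exp_sum]
  rw [← Fintype.prod_sum (f := fun v b => Real.exp (s * (a v * sgn b)))]
  calc ∏ v, ∑ b : Bool, Real.exp (s * (a v * sgn b))
      ≤ ∏ _v : ι, 2 * Real.exp (s ^ 2 / 2) := by
        refine prod_le_prod (fun v _ => sum_nonneg fun b _ => (Real.exp_pos _).le) fun v _ => ?_
        have h1 : ∑ b : Bool, Real.exp (s * (a v * sgn b)) = 2 * Real.cosh (s * a v) := by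
          simp [sgn, Real.cosh_eq]; ring
        rw [h1]
        refine mul_le_mul_of_nonneg_left ((Real.cosh_le_exp_half_sq _).trans
          (Real.exp_le_exp.2 ?_)) zero_le_two
        have h2 : a v ^ 2 ≤ 1 := (sq_le_one_iff_abs_le_one _).2 (ha v)
        rw [mul_pow]
        nlinarith [sq_nonneg s]
    _ = _ := by
        rw [prod_const, card_univ, mul_pow, ← Real.exp_nat_mul]

/-- The size of the rounded value is small in exponential moment. -/
theorem abs_round_le (y s : ℝ) (hs : 2 ≤ s) :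
    |(round y : ℝ)| ≤ Real.exp (-(s / 2)) * (Real.exp (s * y) + Real.exp (s * -y)) := by
  have hr := abs_sub_round y
  by_cases hy : |y| < 1 / 2
  · have h0 : round y = 0 := by
      rw [round_eq, Int.floor_eq_iff]
      rw [abs_lt] at hy
      constructor <;> push_cast <;> linarith
    rw [h0]
    simp
    positivity
  · push Not at hy
    have h1 : |(round y : ℝ)| ≤ |y| + 1 / 2 := by
      have := abs_add_le (y) (-(y - round y))
      rw [abs_neg, show y + -(y - (round y : ℝ)) = (round y : ℝ) by ring] at this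
      linarith
    have h2 : 2 * |y| ≤ Real.exp (s * (|y| - 1 / 2)) := by
      have := Real.add_one_le_exp (s * (|y| - 1 / 2))
      have := mul_le_mul_of_nonneg_right hs (show (0 : ℝ) ≤ |y| - 1 / 2 by linarith)
      linarith
    refine le_trans (by linarith : |(round y : ℝ)| ≤ 2 * |y|) (le_trans h2 ?_)
    rw [show s * (|y| - 1 / 2) = -(s / 2) + s * |y| by ring, Real.exp_add]
    refine mul_le_mul_of_nonneg_left ?_ (Real.exp_pos _).le
    rcases le_or_gt 0 y with h | h
    · rw [abs_of_nonneg h]; linarith [Real.exp_pos (s * -y)]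
    · rw [abs_of_neg h]; linarith [Real.exp_pos (s * y)]

/-- The number of integer vectors with small total absolute value. -/
theorem count_small (B : ℕ) (F : Finset (κ → ℤ)) (hF : ∀ k ∈ F, ∑ i, (k i).natAbs ≤ B)
    (z : ℝ) (hz : 0 < z) (hz1 : z ≤ 1 / 2) :
    (F.card : ℝ) * z ^ B ≤ Real.exp ((Fintype.card κ : ℝ) * (4 * z)) := by
  classical
  set I : Finset ℤ := Finset.Icc (-(B : ℤ)) B with hI
  have hsub : F ⊆ Fintype.piFinset fun _ : κ => I := by
    intro k hk
    refine Fintype.mem_piFinset.2 fun i => ?_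
    have := (single_le_sum (fun j _ => Nat.zero_le _) (mem_univ i)).trans (hF k hk)
    rw [hI, Finset.mem_Icc]
    omega
  have hone : ∑ l ∈ I, z ^ l.natAbs ≤ 1 + 4 * z := by
    have e : ∀ B : ℕ, ∑ l ∈ Finset.Icc (-(B : ℤ)) B, z ^ l.natAbs =
        1 + 2 * ∑ j ∈ Finset.range B, z ^ (j + 1) := by
      intro B
      induction B with
      | zero => simp
      | succ B ih =>
        have h1 : Finset.Icc (-((B + 1 : ℕ) : ℤ)) ((B + 1 : ℕ) : ℤ) =
            insert (-((B : ℤ) + 1)) (insert ((B : ℤ) + 1) (Finset.Icc (-(B : ℤ)) B)) := by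
          ext l; simp only [Finset.mem_Icc, Finset.mem_insert]; omega
        rw [h1, sum_insert (by simp only [Finset.mem_Icc, Finset.mem_insert]; omega),
          sum_insert (by simp only [Finset.mem_Icc]; omega), ih, Finset.sum_range_succ]
        rw [show (-((B : ℤ) + 1)).natAbs = B + 1 by omega,
          show ((B : ℤ) + 1).natAbs = B + 1 by omega]
        ring
    rw [hI, e B]
    have hg : ∑ j ∈ Finset.range B, z ^ (j + 1) ≤ 2 * z := by
      have : ∀ B : ℕ, ∑ j ∈ Finset.range B, z ^ (j + 1) ≤ 2 * z - 2 * z ^ (B + 1) := by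
        intro B
        induction B with
        | zero => simp
        | succ B ih =>
          rw [Finset.sum_range_succ]
          have : 0 ≤ z ^ (B + 1) := by positivity
          have : z ^ (B + 1 + 1) ≤ z ^ (B + 1) * (1 / 2) := by
            rw [pow_succ]; exact mul_le_mul_of_nonneg_left hz1 (by positivity)
          linarith
      have := this B
      have : 0 ≤ z ^ (B + 1) := by positivity
      linarith
    linarith
  calc (F.card : ℝ) * z ^ B = ∑ _k ∈ F, z ^ B := by rw [sum_const, nsmul_eq_mul]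
    _ ≤ ∑ k ∈ F, ∏ i, z ^ (k i).natAbs := sum_le_sum fun k hk => by
        rw [prod_pow_eq_pow_sum]
        exact pow_le_pow_of_le_one hz.le (by linarith) (hF k hk)
    _ ≤ ∑ k ∈ Fintype.piFinset (fun _ : κ => I), ∏ i, z ^ (k i).natAbs :=
        sum_le_sum_of_subset_of_nonneg hsub fun _ _ _ => prod_nonneg fun _ _ => by positivity
    _ = (∑ l ∈ I, z ^ l.natAbs) ^ Fintype.card κ := by
        rw [← Finset.prod_univ_sum (fun _ : κ => I) (fun _ l => z ^ l.natAbs), prod_const,
          card_univ]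
    _ ≤ Real.exp (4 * z) ^ Fintype.card κ := by
        refine pow_le_pow_left₀ (sum_nonneg fun _ _ => by positivity) ?_ _
        linarith [Real.add_one_le_exp (4 * z)]
    _ = _ := by rw [← Real.exp_nat_mul]

/-- The number of signings close to a given one. -/
theorem ball_le (χ : ι → Bool) :
    (((univ : Finset (ι → Bool)).filter fun χ' =>
      10 * (univ.filter fun v => χ' v ≠ χ v).card ≤ Fintype.card ι).card : ℝ) ≤
      (14 / 10 : ℝ) ^ Fintype.card ι := by
  classical
  set n := Fintype.card ι with hn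
  refine le_of_pow_le_pow_left₀ (show (10 : ℕ) ≠ 0 by norm_num) (by positivity) ?_
  set d : (ι → Bool) → ℕ := fun χ' => (univ.filter fun v => χ' v ≠ χ v).card with hd
  set G := (univ : Finset (ι → Bool)).filter fun χ' => 10 * d χ' ≤ n with hG
  have htot : ∑ χ' : ι → Bool, ((1 : ℝ) / 9) ^ d χ' = (10 / 9) ^ n := by
    have : ∀ χ' : ι → Bool, ((1 : ℝ) / 9) ^ d χ' =
        ∏ v, if χ' v ≠ χ v then (1 : ℝ) / 9 else 1 := by
      intro χ'
      rw [prod_ite, prod_const, prod_const_one, mul_one]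
    simp only [this]
    rw [← Fintype.prod_sum (f := fun v b => if b ≠ χ v then (1 : ℝ) / 9 else 1), hn, ← card_univ,
      ← prod_const]
    refine prod_congr rfl fun v _ => ?_
    cases χ v <;> norm_num
  obtain ⟨D, hD⟩ : ∃ D, D = n / 10 := ⟨_, rfl⟩
  have hle : (G.card : ℝ) * (1 / 9) ^ D ≤ (10 / 9) ^ n := by
    rw [← htot, ← nsmul_eq_mul, ← sum_const]
    refine le_trans (sum_le_sum fun χ' hχ' => ?_)
      (sum_le_sum_of_subset_of_nonneg (subset_univ G) fun _ _ _ => by positivity)
    have := (mem_filter.1 hχ').2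
    exact pow_le_pow_of_le_one (by norm_num) (by norm_num) (by omega)
  have h9 : (G.card : ℝ) ≤ (10 / 9) ^ n * 9 ^ D := by
    rw [one_div, inv_pow, ← div_eq_mul_inv, div_le_iff₀ (by positivity)] at hle
    exact hle
  refine le_trans (pow_le_pow_left₀ (Nat.cast_nonneg _) h9 10) ?_
  rw [mul_pow, ← pow_mul, ← pow_mul, ← pow_mul]
  calc ((10 : ℝ) / 9) ^ (n * 10) * 9 ^ (D * 10) ≤ (10 / 9) ^ (n * 10) * 9 ^ n :=
        mul_le_mul_of_nonneg_left (pow_le_pow_right₀ (by norm_num) (by omega)) (by positivity)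
    _ = (((10 : ℝ) / 9) ^ 10 * 9) ^ n := by
        rw [mul_comm n 10, pow_mul, mul_pow]
    _ ≤ (((14 : ℝ) / 10) ^ 10) ^ n := pow_le_pow_left₀ (by positivity) (by norm_num) n
    _ = _ := by rw [← pow_mul, mul_comm]

/-- Partial colouring: some `x` with entries in `{-1, 0, 1}`, at least a tenth of them nonzero,
has all row sums small. -/
theorem partial_colouring (a : κ → ι → ℝ) (ha : ∀ i v, |a i v| ≤ 1)
    (hn : 1 ≤ Fintype.card ι) (hnm : Fintype.card ι ≤ Fintype.card κ) :
    ∃ x : ι → ℤ, (∀ v, x v = 0 ∨ x v = 1 ∨ x v = -1) ∧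
      Fintype.card ι ≤ 10 * (univ.filter fun v => x v ≠ 0).card ∧
      ∀ i, |∑ v, a i v * (x v : ℝ)| ≤ 6 * phi (Fintype.card κ) (Fintype.card ι) := by
  classical
  set n := Fintype.card ι with hn'
  set m := Fintype.card κ with hm'
  have hnR : (1 : ℝ) ≤ n := by exact_mod_cast hn
  have hmn : (n : ℝ) ≤ m := by exact_mod_cast hnm
  have hm0 : (0 : ℝ) < m := by linarith
  set Lg := Real.log (4 * m / n) with hLg
  have hLg1 : 1 ≤ Lg := by
    rw [hLg, Real.le_log_iff_exp_le (by positivity)]
    refine le_trans Real.exp_one_lt_d9.le ?_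
    rw [le_div_iff₀ (by linarith)]
    linarith
  have hLg4 : Lg ≤ 4 * m / n := by
    have := Real.log_le_sub_one_of_pos (show (0 : ℝ) < 4 * m / n by positivity)
    linarith
  rcases Nat.lt_or_ge n 3 with hsmall | hbig
  · refine ⟨fun _ => 1, fun _ => Or.inr (Or.inl rfl), by simp [hn']; omega, fun i => ?_⟩
    calc |∑ v, a i v * ((1 : ℤ) : ℝ)| ≤ ∑ v, |a i v * ((1 : ℤ) : ℝ)| := abs_sum_le_sum_abs _ _
      _ ≤ ∑ _v : ι, (1 : ℝ) := sum_le_sum fun v _ => by simpa using ha i v
      _ = (n : ℝ) := by simp [hn']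
      _ ≤ 2 := by exact_mod_cast (by omega : n ≤ 2)
      _ ≤ 6 * phi m n := by
          have : 1 ≤ phi m n := by
            rw [phi, Real.one_le_sqrt, ← hLg]; nlinarith
          linarith
  set Δ := Real.sqrt (8 * n * (2 * Lg + 12)) with hΔ
  have hΔ0 : 0 < Δ := Real.sqrt_pos.2 (by positivity)
  have hΔsq : Δ ^ 2 = 8 * n * (2 * Lg + 12) := Real.sq_sqrt (by positivity)
  set T : κ → (ι → Bool) → ℝ := fun i χ => ∑ v, a i v * sgn (χ v) with hT
  set kv : (ι → Bool) → κ → ℤ := fun χ i => round (T i χ / Δ) with hkv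
  set s := Δ ^ 2 / (2 * n) with hs
  have hsval : s = 4 * (2 * Lg + 12) := by rw [hs, hΔsq]; field_simp; ring
  have hrow : ∀ i, ∑ χ, |(kv χ i : ℝ)| ≤
      (2 : ℝ) ^ n * (2 * Real.exp (-(2 * Lg + 12))) := by
    intro i
    refine le_trans (sum_le_sum fun χ _ => abs_round_le (T i χ / Δ) s (by rw [hsval]; linarith)) ?_
    have e1 : ∀ χ, s * (T i χ / Δ) = s / Δ * ∑ v, a i v * sgn (χ v) := fun χ => by
      rw [hT]; ring
    have e2 : ∀ χ, s * -(T i χ / Δ) = -(s / Δ) * ∑ v, a i v * sgn (χ v) := fun χ => by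
      rw [hT]; ring
    simp only [e1, e2]
    rw [← mul_sum, sum_add_distrib]
    refine le_trans (mul_le_mul_of_nonneg_left (add_le_add (sum_exp_le (a i) (ha i) _)
      (sum_exp_le (a i) (ha i) _)) (Real.exp_pos _).le) (le_of_eq ?_)
    rw [neg_sq, ← hn']
    have : (n : ℝ) * ((s / Δ) ^ 2 / 2) = s / 2 + -(2 * Lg + 12) := by
      rw [div_pow, hΔsq, hsval]; field_simp; ring
    rw [this, Real.exp_add, Real.exp_neg (s / 2)]
    field_simp
    ring
  set B' := (n : ℝ) ^ 2 * Real.exp (-(12 : ℝ)) / (4 * m) with hB'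
  have hB'0 : 0 < B' := by positivity
  set Good := (univ : Finset (ι → Bool)).filter fun χ => ∑ i, |(kv χ i : ℝ)| ≤ B' with hGood
  have hexp : Real.exp (-(2 * Lg + 12)) = Real.exp (-(12 : ℝ)) * ((n : ℝ) / (4 * m)) ^ 2 := by
    rw [show -(2 * Lg + 12) = -(12 : ℝ) + -(Lg + Lg) by ring, Real.exp_add, Real.exp_neg (Lg + Lg),
      Real.exp_add, hLg, Real.exp_log (by positivity)]
    field_simp
  have hhalf : (2 : ℝ) ^ n / 2 ≤ Good.card := by
    have htot : ∑ χ, ∑ i, |(kv χ i : ℝ)| ≤ (2 : ℝ) ^ n / 2 * B' := by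
      rw [Finset.sum_comm]
      refine le_trans (sum_le_sum fun i _ => hrow i) (le_of_eq ?_)
      rw [sum_const, card_univ, nsmul_eq_mul, ← hm', hexp, hB']
      field_simp
      ring
    have hbad : ((Goodᶜ).card : ℝ) * B' ≤ (2 : ℝ) ^ n / 2 * B' := by
      rw [← nsmul_eq_mul, ← sum_const]
      refine le_trans (sum_le_sum fun χ hχ => ?_) (le_trans (sum_le_sum_of_subset_of_nonneg
        (subset_univ Goodᶜ) fun χ _ _ => sum_nonneg fun i _ => abs_nonneg _) htot)
      simp only [hGood, mem_compl, mem_filter, mem_univ, true_and, not_le] at hχ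
      exact hχ.le
    have hb2 := le_of_mul_le_mul_right hbad hB'0
    have : (Good.card : ℝ) + (Goodᶜ).card = (2 : ℝ) ^ n := by
      rw [← Nat.cast_add, card_add_card_compl]; simp [hn']
    linarith
  have hclass : ((Good.image kv).card : ℝ) ≤ (1011 / 1000 : ℝ) ^ n := by
    set z := B' / m with hz
    have hz0 : 0 < z := by positivity
    have he12 : Real.exp (-(12 : ℝ)) ≤ 1 / 4096 := by
      rw [Real.exp_neg, one_div]
      refine inv_anti₀ (by norm_num) ?_
      have h2 : (2 : ℝ) ≤ Real.exp 1 := by linarith [Real.add_one_le_exp (1 : ℝ)]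
      have := pow_le_pow_left₀ zero_le_two h2 12
      rw [← Real.exp_nat_mul] at this
      norm_num at this
      exact this
    have hz12 : z ≤ 1 / 2 := by
      rw [hz, hB', div_div, div_le_iff₀ (by positivity)]
      have h1 : (n : ℝ) ^ 2 ≤ m * m := by nlinarith
      nlinarith [mul_le_mul h1 he12 (Real.exp_pos _).le (by positivity)]
    have hcnt := count_small ⌊B'⌋₊ (Good.image kv) (fun k hk => by
      obtain ⟨χ, hχ, rfl⟩ := mem_image.1 hk
      refine Nat.le_floor ?_
      refine le_trans (le_of_eq ?_) (mem_filter.1 hχ).2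
      push_cast
      simp [Nat.cast_natAbs]) z hz0 hz12
    rw [← hm'] at hcnt
    have hzB : Real.exp (B' * Real.log z) ≤ z ^ ⌊B'⌋₊ := by
      rw [← Real.exp_log (pow_pos hz0 _), Real.log_pow, Real.exp_le_exp]
      exact mul_le_mul_of_nonpos_right (Nat.floor_le hB'0.le)
        (Real.log_nonpos hz0.le (by linarith))
    have h1 := le_trans (mul_le_mul_of_nonneg_left hzB (Nat.cast_nonneg _)) hcnt
    rw [← le_div_iff₀ (Real.exp_pos _), ← Real.exp_sub] at h1
    refine le_trans h1 ?_
    have hlogz : -Real.log z = 2 * Lg + 12 - Real.log 4 := by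
      have : z = Real.exp (-(12 : ℝ)) * ((n : ℝ) / (4 * m)) ^ 2 * 4 := by
        rw [hz, hB']; field_simp
      rw [this, Real.log_mul (by positivity) (by norm_num),
        Real.log_mul (by positivity) (by positivity), Real.log_exp, Real.log_pow,
        show (n : ℝ) / (4 * m) = ((4 * (m : ℝ)) / n)⁻¹ by rw [inv_div], Real.log_inv, ← hLg]
      push_cast; ring
    have hBL : B' * (2 * Lg + 16) ≤ n / 100 := by
      have h2 : (n : ℝ) / (4 * m) * Lg ≤ 1 := by
        rw [le_div_iff₀ (by linarith)] at hLg4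
        rw [div_mul_eq_mul_div, div_le_one (by positivity)]
        linarith
      have h3 : (n : ℝ) / (4 * m) ≤ 1 / 4 := by
        rw [div_le_iff₀ (by positivity)]; linarith
      have : B' * (2 * Lg + 16) =
          n * Real.exp (-(12 : ℝ)) * (2 * ((n : ℝ) / (4 * m) * Lg) + 16 * ((n : ℝ) / (4 * m))) := by
        rw [hB']; ring
      rw [this]
      refine le_trans (mul_le_mul (mul_le_mul_of_nonneg_left he12 (by positivity))
        (by linarith : 2 * ((n : ℝ) / (4 * m) * Lg) + 16 * ((n : ℝ) / (4 * m)) ≤ 6)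
        (by positivity) (by positivity)) ?_
      linarith
    refine le_trans (Real.exp_le_exp.2 (show _ ≤ (n : ℝ) * (1 / 100) from ?_)) ?_
    · have e : (m : ℝ) * (4 * z) - B' * Real.log z =
          B' * 4 + B' * (2 * Lg + 12 - Real.log 4) := by
        rw [← hlogz, hz]; field_simp; ring
      rw [e]
      nlinarith [mul_nonneg hB'0.le (Real.log_nonneg (show (1 : ℝ) ≤ 4 by norm_num))]
    · rw [Real.exp_nat_mul]
      refine pow_le_pow_left₀ (Real.exp_pos _).le ?_ _
      refine le_trans (Real.exp_bound_div_one_sub_of_interval (by norm_num) (by norm_num)) ?_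
      norm_num
  have key : ∃ χ ∈ Good, ∃ χ' ∈ Good,
      kv χ = kv χ' ∧ n < 10 * (univ.filter fun v => χ' v ≠ χ v).card := by
    by_contra hno
    push Not at hno
    have hfib : ∀ k ∈ Good.image kv, ((Good.filter fun χ => kv χ = k).card : ℝ) ≤
        (14 / 10 : ℝ) ^ n := by
      intro k hk
      obtain ⟨χ, hχ, rfl⟩ := mem_image.1 hk
      refine le_trans ?_ (ball_le χ)
      refine Nat.cast_le.2 (card_le_card fun χ' hχ' => ?_)
      obtain ⟨h1, h2⟩ := mem_filter.1 hχ'
      exact mem_filter.2 ⟨mem_univ _, hno χ hχ χ' h1 h2.symm⟩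
    have : (Good.card : ℝ) ≤ (1011 / 1000 : ℝ) ^ n * (14 / 10 : ℝ) ^ n := by
      rw [card_eq_sum_card_image kv Good, Nat.cast_sum]
      refine le_trans (sum_le_card_nsmul _ _ _ hfib) ?_
      rw [nsmul_eq_mul]
      exact mul_le_mul_of_nonneg_right hclass (by positivity)
    have hlt : 2 * (((1011 : ℝ) / 1000) * (14 / 10)) ^ n < (2 : ℝ) ^ n := by
      obtain ⟨j, hj⟩ : ∃ j, n = j + 3 := ⟨n - 3, by omega⟩
      rw [hj, pow_add, pow_add, ← mul_assoc]
      have h1 : (((1011 : ℝ) / 1000) * (14 / 10)) ^ j ≤ 2 ^ j :=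
        pow_le_pow_left₀ (by norm_num) (by norm_num) _
      have h2 : (((1011 : ℝ) / 1000) * (14 / 10)) ^ 3 * 2 < 2 ^ 3 := by norm_num
      calc 2 * (((1011 : ℝ) / 1000) * (14 / 10)) ^ j * (((1011 : ℝ) / 1000) * (14 / 10)) ^ 3
          = (((1011 : ℝ) / 1000) * (14 / 10)) ^ j *
            ((((1011 : ℝ) / 1000) * (14 / 10)) ^ 3 * 2) := by ring
        _ ≤ 2 ^ j * ((((1011 : ℝ) / 1000) * (14 / 10)) ^ 3 * 2) :=
            mul_le_mul_of_nonneg_right h1 (by norm_num)
        _ < 2 ^ j * 2 ^ 3 := mul_lt_mul_of_pos_left h2 (by positivity)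
    rw [← mul_pow] at this
    linarith
  obtain ⟨χ, -, χ', -, hk, hd⟩ := key
  refine ⟨fun v => if χ v = χ' v then 0 else (if χ v then 1 else -1), fun v => ?_, ?_, fun i => ?_⟩
  · by_cases h : χ v = χ' v <;> cases hb : χ v <;> simp_all
  · refine le_trans hd.le (Nat.mul_le_mul_left _ (card_le_card fun v hv => ?_))
    simp only [mem_filter, mem_univ, true_and] at hv ⊢
    rw [if_neg (Ne.symm hv)]
    split_ifs <;> norm_num
  · have e : ∑ v, a i v * (((if χ v = χ' v then 0 else (if χ v then 1 else -1)) : ℤ) : ℝ) =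
        (T i χ - T i χ') / 2 := by
      rw [hT]
      simp only
      rw [← sum_sub_distrib, sum_div]
      refine sum_congr rfl fun v _ => ?_
      cases χ v <;> cases χ' v <;> simp [sgn] <;> ring
    rw [e]
    have h1 := abs_sub_round (T i χ / Δ)
    have h2 := abs_sub_round (T i χ' / Δ)
    have h3 : (round (T i χ / Δ) : ℝ) = round (T i χ' / Δ) := by
      exact_mod_cast congrFun hk i
    rw [h3] at h1
    have h4 : |T i χ / Δ - T i χ' / Δ| ≤ 1 := by
      rw [abs_le] at h1 h2 ⊢
      constructor <;> linarith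
    rw [← sub_div, abs_div, abs_of_pos hΔ0, div_le_one hΔ0] at h4
    rw [abs_div, abs_two]
    have hΔphi : Δ ≤ 11 * phi m n := by
      have hphi0 : 0 ≤ phi m n := Real.sqrt_nonneg _
      refine le_of_pow_le_pow_left₀ two_ne_zero (by linarith) ?_
      have hphi : phi m n ^ 2 = (n : ℝ) * Lg := Real.sq_sqrt (by positivity)
      rw [hΔsq, mul_pow, hphi]
      have := mul_le_mul_of_nonneg_left hLg1 (show (0 : ℝ) ≤ (n : ℝ) by positivity)
      linarith
    linarith

end Vale.Agent.P110.Round
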