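import Vale.Agent.P110.Round.Partial

/-!
P110: full colouring by iterating partial colourings, and rounding of dyadic vectors while
keeping their deficit.
-/

namespace Vale.Agent.P110.Round

open Finset

theorem mul_log_mono {x y m : ℝ} (hx : 0 < x) (hxy : x ≤ y) (hym : y ≤ m) :
    x * Real.log (4 * m / x) ≤ y * Real.log (4 * m / y) := by
  have hy : 0 < y := by linarith
  have hm : 0 < m := by linarith
  have h1 : 1 ≤ Real.log (4 * m / y) := by
    rw [Real.le_log_iff_exp_le (by positivity)]
    refine le_trans Real.exp_one_lt_d9.le ?_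
    rw [le_div_iff₀ hy]
    linarith
  have h2 : Real.log (4 * m / x) = Real.log (4 * m / y) + Real.log (y / x) := by
    rw [← Real.log_mul (by positivity) (by positivity)]
    congr 1
    field_simp
  have h3 : x * Real.log (y / x) ≤ y - x := by
    have := mul_le_mul_of_nonneg_left
      (Real.log_le_sub_one_of_pos (show 0 < y / x by positivity)) hx.le
    rwa [mul_sub, mul_div_cancel₀ _ hx.ne', mul_one] at this
  rw [h2, mul_add]
  have := mul_le_mul_of_nonneg_left h1 (show 0 ≤ y - x by linarith)
  linarith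

theorem phi_nonneg (m n : ℕ) : 0 ≤ phi m n := Real.sqrt_nonneg _

theorem phi_shrink (m k n : ℕ) (hkn : 10 * k ≤ 9 * n) (hnm : n ≤ m) :
    phi m k ≤ 99 / 100 * phi m n := by
  rcases Nat.eq_zero_or_pos k with rfl | hk
  · simp only [phi, Nat.cast_zero, zero_mul, Real.sqrt_zero]
    exact mul_nonneg (by norm_num) (phi_nonneg m n)
  have hkR : (0 : ℝ) < k := by exact_mod_cast hk
  have hnR : (0 : ℝ) < n := by exact_mod_cast (by omega : 0 < n)
  have hnm' : (n : ℝ) ≤ m := by exact_mod_cast hnm
  have hkn' : (k : ℝ) ≤ 9 / 10 * n := by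
    have : (10 : ℝ) * k ≤ 9 * n := by exact_mod_cast hkn
    linarith
  have hlog : Real.log (4 * m / (9 / 10 * n)) ≤ Real.log (4 * m / n) + 1 / 9 := by
    have hm0 : (0 : ℝ) < m := by linarith
    rw [show 4 * (m : ℝ) / (9 / 10 * n) = 4 * m / n * (10 / 9) by field_simp,
      Real.log_mul (by positivity) (by norm_num)]
    linarith [Real.log_le_sub_one_of_pos (show (0 : ℝ) < 10 / 9 by norm_num)]
  have hlog4 : (27 / 20 : ℝ) ≤ Real.log (4 * m / n) := by
    have h4 : (4 : ℝ) ≤ 4 * m / n := by rw [le_div_iff₀ hnR]; linarith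
    have h2 : Real.log 4 = 2 * Real.log 2 := by
      rw [show (4 : ℝ) = 2 ^ 2 by norm_num, Real.log_pow]; norm_num
    linarith [Real.log_le_log (by norm_num) h4, Real.log_two_gt_d9]
  rw [phi, phi, show (99 / 100 : ℝ) = Real.sqrt ((99 / 100) ^ 2) by
    rw [Real.sqrt_sq (by norm_num)], ← Real.sqrt_mul (by norm_num)]
  refine Real.sqrt_le_sqrt ?_
  have h1 := mul_log_mono (m := (m : ℝ)) hkR hkn' (by linarith)
  have h2 := mul_le_mul_of_nonneg_left hlog (show (0 : ℝ) ≤ 9 / 10 * n by positivity)
  have h3 := mul_le_mul_of_nonneg_left hlog4 hnR.le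
  linarith

/-- Spencer: a signing of the set `S` with every row sum bounded by `O(√(n log (4m/n)))`. -/
theorem spencer {ι κ : Type*} [DecidableEq ι] [Fintype κ] (a : κ → ι → ℝ)
    (ha : ∀ i v, |a i v| ≤ 1) :
    ∀ S : Finset ι, S.card ≤ Fintype.card κ → ∃ χ : ι → ℤ, (∀ v, χ v = 1 ∨ χ v = -1) ∧
      ∀ i, |∑ v ∈ S, a i v * (χ v : ℝ)| ≤ 600 * phi (Fintype.card κ) S.card := by
  intro S
  induction S using Finset.strongInduction with
  | _ S ih =>
    intro hS
    rcases S.eq_empty_or_nonempty with rfl | hne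
    · exact ⟨fun _ => 1, fun _ => Or.inl rfl, fun i => by
        simp only [sum_empty, abs_zero]
        exact mul_nonneg (by norm_num) (phi_nonneg _ _)⟩
    obtain ⟨x, hx, hnz, hbd⟩ := partial_colouring (ι := S) (fun i v => a i v) (fun i v => ha i v)
      (by rw [Fintype.card_coe]; exact hne.card_pos) (by rw [Fintype.card_coe]; exact hS)
    rw [Fintype.card_coe] at hnz hbd
    set X : ι → ℤ := fun v => if h : v ∈ S then x ⟨v, h⟩ else 0 with hX
    set R := S.filter fun v => X v = 0 with hR
    set Nz := ((univ : Finset S).filter fun v => x v ≠ 0).map (Function.Embedding.subtype _)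
      with hNz
    have hsplit : R.card + Nz.card = S.card := by
      have hdis : Disjoint R Nz := disjoint_left.2 fun v hv hv' => by
        obtain ⟨⟨w, hw⟩, hw', rfl⟩ := mem_map.1 hv'
        have h0 := (mem_filter.1 hv).2
        simp only [hX, Function.Embedding.subtype_apply, dif_pos hw] at h0
        exact (mem_filter.1 hw').2 h0
      rw [← card_union_of_disjoint hdis]
      congr 1
      ext v
      constructor
      · intro hv
        rcases mem_union.1 hv with h | h
        · exact (mem_filter.1 h).1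
        · obtain ⟨w, -, rfl⟩ := mem_map.1 h
          exact w.2
      · intro hv
        by_cases h0 : x ⟨v, hv⟩ = 0
        · exact mem_union_left _ (mem_filter.2 ⟨hv, by simp only [hX, dif_pos hv, h0]⟩)
        · exact mem_union_right _ (mem_map.2 ⟨⟨v, hv⟩, mem_filter.2 ⟨mem_univ _, h0⟩, rfl⟩)
    rw [← card_map (Function.Embedding.subtype _), ← hNz] at hnz
    have hlt : R ⊂ S := (ssubset_iff_subset_ne).2 ⟨filter_subset _ _, fun h => by
      rw [h] at hsplit
      have := hne.card_pos
      omega⟩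
    obtain ⟨χ', hχ', hbd'⟩ := ih R hlt (by omega)
    refine ⟨fun v => if X v = 0 then χ' v else X v, fun v => ?_, fun i => ?_⟩
    · by_cases h0 : X v = 0
      · simp only [if_pos h0]; exact hχ' v
      · simp only [if_neg h0]
        by_cases hv : v ∈ S
        · simp only [hX, dif_pos hv] at h0 ⊢
          exact (hx ⟨v, hv⟩).resolve_left h0
        · simp only [hX, dif_neg hv] at h0
          simp at h0
    · have e : ∑ v ∈ S, a i v * (((if X v = 0 then χ' v else X v) : ℤ) : ℝ) =
          ∑ v : S, a i v * (x v : ℝ) + ∑ v ∈ R, a i v * (χ' v : ℝ) := by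
        have e1 : ∑ v : S, a i v * (x v : ℝ) = ∑ v ∈ S, a i v * (X v : ℝ) := by
          rw [← sum_coe_sort S fun v => a i v * (X v : ℝ)]
          exact sum_congr rfl fun v _ => by simp [hX, v.2]
        rw [e1, hR, sum_filter, ← sum_add_distrib]
        refine sum_congr rfl fun v _ => ?_
        by_cases h0 : X v = 0 <;> simp [h0]
      rw [e]
      refine le_trans (abs_add_le _ _) (le_trans (add_le_add (hbd i) (hbd' i)) ?_)
      have := phi_shrink (Fintype.card κ) R.card S.card (by omega) hS
      linarith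

/-- The distance of a dyadic number to the nearer end of its range. -/
noncomputable def deficit (J z : ℕ) : ℝ := ((min z (2 ^ J - z) : ℕ) : ℝ) / 2 ^ J

/-- Rounding dyadic vectors digit by digit. -/
theorem round_dyadic {ι κ : Type*} [Fintype ι] [DecidableEq ι] [Fintype κ] (a : κ → ι → ℝ)
    (ha : ∀ i v, |a i v| ≤ 1) (hm : Fintype.card ι ≤ Fintype.card κ + 1) (X Dmax : ℝ)
    (hX : ∀ k : ℕ, k ≤ Fintype.card ι → phi (Fintype.card κ + 1) k ≤ X) (hD0 : 0 < Dmax)
    (hD1 : Dmax ≤ (Fintype.card κ + 1 : ℕ)) :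
    ∀ (J : ℕ) (z : ι → ℕ), (∀ v, z v ≤ 2 ^ J) →
      ∑ v, deficit J (z v) + 600 * X * (1 - ((1 : ℝ) / 2) ^ J) ≤ Dmax →
      ∃ w : ι → ℕ, (∀ v, w v ≤ 1) ∧ ∀ i,
        |∑ v, a i v * ((z v : ℝ) / 2 ^ J - (w v : ℝ))| ≤
          600 * Real.sqrt (Dmax * Real.log (4 * (Fintype.card κ + 1 : ℕ) / Dmax)) *
            (3 * (1 - (3 / 4 : ℝ) ^ J)) := by
  intro J
  induction J with
  | zero =>
    intro z hz _
    exact ⟨z, fun v => by simpa using hz v, fun i => by simp⟩
  | succ J ih =>
    intro z hz hD
    set M := Fintype.card κ + 1 with hM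
    set Q := Real.sqrt (Dmax * Real.log (4 * (M : ℝ) / Dmax)) with hQ
    set S := univ.filter fun v : ι => z v % 2 = 1 with hS
    set sg : ι → ℝ := fun v => if z v ≤ 2 ^ J then 1 else -1 with hsg
    set a' : Option κ → ι → ℝ := fun o => o.elim sg a with ha'
    obtain ⟨χ, hχ, hbd⟩ := spencer a' (fun o v => by
      cases o with
      | none => simp only [ha', hsg, Option.elim]; split_ifs <;> norm_num
      | some i => exact ha i v) S (by
        rw [Fintype.card_option]
        exact le_trans (card_le_univ S) hm)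
    rw [Fintype.card_option, ← hM] at hbd
    set z' : ι → ℕ := fun v =>
      if z v % 2 = 1 then (if χ v = 1 then z v / 2 + 1 else z v / 2) else z v / 2 with hz'
    have hpow : 2 ^ (J + 1) = 2 * 2 ^ J := by ring
    have hz'le : ∀ v, z' v ≤ 2 ^ J := by
      intro v; have := hz v; simp only [hz']; split_ifs <;> omega
    have hdiff : ∀ v, (z v : ℝ) / 2 ^ (J + 1) - (z' v : ℝ) / 2 ^ J =
        if v ∈ S then -((χ v : ℝ) / 2 ^ (J + 1)) else 0 := by
      intro v
      by_cases hodd : z v % 2 = 1
      · have hv : v ∈ S := mem_filter.2 ⟨mem_univ _, hodd⟩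
        rw [if_pos hv]
        rcases hχ v with h | h
        · have : 2 * z' v = z v + 1 := by simp only [hz', if_pos hodd, h, if_true]; omega
          have hR : (2 : ℝ) * (z' v : ℝ) = z v + 1 := by exact_mod_cast this
          rw [h, pow_succ]; field_simp; push_cast; linarith
        · have : 2 * z' v + 1 = z v := by
            simp only [hz', if_pos hodd, h, show ((-1 : ℤ) = 1) = False by simp, if_false]; omega
          have hR : (2 : ℝ) * (z' v : ℝ) + 1 = z v := by exact_mod_cast this
          rw [h, pow_succ]; field_simp; push_cast; linarith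
      · have hv : v ∉ S := fun h => hodd (mem_filter.1 h).2
        rw [if_neg hv]
        have : 2 * z' v = z v := by simp only [hz', if_neg hodd]; omega
        have hR : (2 : ℝ) * (z' v : ℝ) = z v := by exact_mod_cast this
        rw [pow_succ]; field_simp; linarith
    have hdef : ∀ v, deficit J (z' v) ≤ deficit (J + 1) (z v) +
        if v ∈ S then sg v * (χ v : ℝ) / 2 ^ (J + 1) else 0 := by
      intro v
      have hzv := hz v
      have hz'v := hz'le v
      have hd := hdiff v
      simp only [deficit, hsg]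
      have hmin : ∀ K w : ℕ, w ≤ K → ((min w (K - w) : ℕ) : ℝ) = min (w : ℝ) ((K : ℝ) - w) := by
        intro K w h; rw [Nat.cast_min, Nat.cast_sub h]
      rw [hmin _ _ hz'v, hmin _ _ hzv]
      push_cast
      have hp : (0 : ℝ) < 2 ^ J := by positivity
      have hp2 : (2 : ℝ) ^ (J + 1) = 2 * 2 ^ J := by ring
      rw [hp2] at hd ⊢
      by_cases hv : v ∈ S
      · rw [if_pos hv] at hd ⊢
        have e : (z' v : ℝ) = ((z v : ℝ) + χ v) / 2 := by
          field_simp at hd ⊢; linarith
        by_cases hle : z v ≤ 2 ^ J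
        · have hzR : (z v : ℝ) ≤ 2 ^ J := by exact_mod_cast hle
          rw [if_pos hle, one_mul, min_eq_left (by linarith : (z v : ℝ) ≤ 2 * 2 ^ J - z v)]
          refine le_trans (div_le_div_of_nonneg_right (min_le_left _ _) hp.le) (le_of_eq ?_)
          rw [e]; field_simp
        · have hzR : (2 : ℝ) ^ J ≤ (z v : ℝ) := by exact_mod_cast (not_le.1 hle).le
          rw [if_neg hle, min_eq_right (by linarith : (2 : ℝ) * 2 ^ J - z v ≤ (z v : ℝ))]
          refine le_trans (div_le_div_of_nonneg_right (min_le_right _ _) hp.le) (le_of_eq ?_)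
          rw [e]; field_simp; ring
      · rw [if_neg hv] at hd ⊢
        have e : (z v : ℝ) = 2 * z' v := by
          field_simp at hd; linarith
        rw [add_zero, e, ← mul_sub, ← mul_min_of_nonneg _ _ zero_le_two,
          mul_div_mul_left _ _ two_ne_zero]
    have hcardS : (S.card : ℝ) ≤ 2 ^ (J + 1) * Dmax := by
      have h1 : ((S.card : ℝ)) / 2 ^ (J + 1) ≤ ∑ v, deficit (J + 1) (z v) := by
        rw [div_eq_mul_inv, ← nsmul_eq_mul, ← sum_const]
        refine le_trans (sum_le_sum fun v hv => ?_) (sum_le_sum_of_subset_of_nonneg (subset_univ S)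
          fun v _ _ => div_nonneg (Nat.cast_nonneg _) (by positivity))
        have hodd := (mem_filter.1 hv).2
        have := hz v
        rw [deficit, inv_eq_one_div]
        refine div_le_div_of_nonneg_right ?_ (by positivity)
        exact_mod_cast (by omega : 1 ≤ min (z v) (2 ^ (J + 1) - z v))
      have h2 : 0 ≤ 600 * X * (1 - ((1 : ℝ) / 2) ^ (J + 1)) := by
        refine mul_nonneg (mul_nonneg (by norm_num) ((phi_nonneg _ _).trans (hX 0 (Nat.zero_le _))))
          ?_
        linarith [pow_le_one₀ (n := J + 1) (by norm_num : (0 : ℝ) ≤ 1 / 2) (by norm_num)]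
      rw [div_le_iff₀ (by positivity)] at h1
      have h3 : ∑ v, deficit (J + 1) (z v) ≤ Dmax := by linarith
      calc (S.card : ℝ) ≤ _ := h1
        _ ≤ Dmax * 2 ^ (J + 1) := mul_le_mul_of_nonneg_right h3 (by positivity)
        _ = _ := mul_comm _ _
    have hsm : phi M S.card ≤ Real.sqrt (2 ^ (J + 1)) * Q := by
      rw [hQ, ← Real.sqrt_mul (by positivity), phi]
      refine Real.sqrt_le_sqrt ?_
      rw [← mul_assoc]
      have hSM : (S.card : ℝ) ≤ M := by exact_mod_cast le_trans (card_le_univ S) hm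
      rcases Nat.eq_zero_or_pos S.card with h0 | h0
      · rw [h0, Nat.cast_zero, zero_mul]
        refine mul_nonneg (by positivity) (Real.log_nonneg ?_)
        rw [le_div_iff₀ hD0]
        linarith
      have hS0 : (0 : ℝ) < S.card := by exact_mod_cast h0
      rcases le_total (2 ^ (J + 1) * Dmax) (M : ℝ) with hle | hle
      · refine le_trans (mul_log_mono hS0 hcardS hle) (mul_le_mul_of_nonneg_left ?_ (by positivity))
        refine Real.log_le_log (by positivity) (div_le_div_of_nonneg_left (by positivity) hD0 ?_)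
        exact le_mul_of_one_le_left hD0.le (one_le_pow₀ (by norm_num))
      · refine le_trans (mul_log_mono hS0 hSM le_rfl) (mul_le_mul hle ?_ (Real.log_nonneg ?_)
          (by positivity))
        · refine Real.log_le_log (by positivity) (div_le_div_of_nonneg_left (by positivity) hD0 ?_)
          exact hD1
        · rw [le_div_iff₀ (lt_of_lt_of_le hD0 hD1)]; linarith [lt_of_lt_of_le hD0 hD1]
    have hD' : ∑ v, deficit J (z' v) + 600 * X * (1 - ((1 : ℝ) / 2) ^ J) ≤ Dmax := by
      refine le_trans (add_le_add_left (sum_le_sum fun v _ => hdef v) _) (le_trans ?_ hD)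
      rw [sum_add_distrib, sum_ite_mem, univ_inter, ← sum_div]
      have h1 : ∑ v ∈ S, sg v * (χ v : ℝ) ≤ 600 * X :=
        le_trans (le_abs_self _) (le_trans (hbd none)
          (mul_le_mul_of_nonneg_left (hX _ (card_le_univ S)) (by norm_num)))
      have h2 := div_le_div_of_nonneg_right h1 (show (0 : ℝ) ≤ 2 ^ (J + 1) by positivity)
      have h3 : 600 * X / 2 ^ (J + 1) = 600 * X * ((1 / 2 : ℝ) ^ J * (1 / 2)) := by
        rw [← pow_succ, one_div, inv_pow, div_eq_mul_inv]
      rw [pow_succ (1 / 2 : ℝ)]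
      linarith
    obtain ⟨w, hw, hwbd⟩ := ih z' hz'le hD'
    refine ⟨w, hw, fun i => ?_⟩
    have e : ∑ v, a i v * ((z v : ℝ) / 2 ^ (J + 1) - (w v : ℝ)) =
        -((∑ v ∈ S, a i v * (χ v : ℝ)) / 2 ^ (J + 1)) +
          ∑ v, a i v * ((z' v : ℝ) / 2 ^ J - (w v : ℝ)) := by
      have : -((∑ v ∈ S, a i v * (χ v : ℝ)) / 2 ^ (J + 1)) =
          ∑ v, a i v * ((z v : ℝ) / 2 ^ (J + 1) - (z' v : ℝ) / 2 ^ J) := by
        simp only [hdiff, mul_ite, mul_zero, sum_ite_mem, univ_inter]
        rw [sum_div, ← sum_neg_distrib]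
        exact sum_congr rfl fun v _ => by ring
      rw [this, ← sum_add_distrib]
      exact sum_congr rfl fun v _ => by ring
    rw [e]
    refine le_trans (abs_add_le _ _) ?_
    rw [abs_neg, abs_div, abs_of_pos (show (0 : ℝ) < 2 ^ (J + 1) by positivity)]
    have h1 : |∑ v ∈ S, a i v * (χ v : ℝ)| / 2 ^ (J + 1) ≤ 600 * Q * (3 / 4 : ℝ) ^ (J + 1) := by
      have hQ0 : 0 ≤ Q := Real.sqrt_nonneg _
      have hs : Real.sqrt (2 ^ (J + 1)) / 2 ^ (J + 1) ≤ (3 / 4 : ℝ) ^ (J + 1) := by
        rw [div_le_iff₀ (by positivity), ← mul_pow, Real.sqrt_le_iff]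
        refine ⟨by positivity, ?_⟩
        rw [← pow_mul, mul_comm (J + 1) 2, pow_mul]
        exact pow_le_pow_left₀ (by norm_num) (by norm_num) _
      refine le_trans (div_le_div_of_nonneg_right (le_trans (hbd (some i))
        (mul_le_mul_of_nonneg_left hsm (by norm_num))) (by positivity)) ?_
      rw [show 600 * (Real.sqrt (2 ^ (J + 1)) * Q) / 2 ^ (J + 1) =
        600 * Q * (Real.sqrt (2 ^ (J + 1)) / 2 ^ (J + 1)) by ring]
      exact mul_le_mul_of_nonneg_left hs (by positivity)
    refine le_trans (add_le_add h1 (hwbd i)) (le_of_eq ?_)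
    rw [pow_succ]
    ring

end Vale.Agent.P110.Round
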